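import Mathlib

/-!
# P336: sparsification of set systems (helper52)

The Impagliazzo–Paturi–Zane sparsification lemma in the language of set systems, in an exact
(disjoint) form: the independent sets of a system of sets of size `≤ t` are partitioned into
at most `exp (ε |U|)` classes, each of which consists of the independent sets, of a system
with at most `C |U|` members of size `≤ t`, which contain a given set.
-/

set_option linter.unusedSectionVars false
set_option linter.dupNamespace false

namespace Vale.Agent.P336.Sparse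

open Finset

/-! ### The constants -/

/-- `β i |U|` bounds the number of sets of size `i` which are ever added. -/
def bet (α i : ℕ) : ℕ := (4 * α) ^ (i - 1) * catalan (i - 1)

/-- The threshold for flowers with petals of size `i`. -/
def tht (α i : ℕ) : ℕ := if i = 0 then 1 else α * bet α i

theorem catalan_pos (n : ℕ) : 0 < catalan n := by
  induction n with
  | zero => simp
  | succ n ih =>
    rw [catalan_succ]
    refine lt_of_lt_of_le ih ?_
    have h := Finset.single_le_sum (f := fun i : Fin n.succ => catalan i * catalan (n - i))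
      (fun i _ => Nat.zero_le _) (mem_univ (0 : Fin n.succ))
    simpa using h

theorem catalan_le_succ (n : ℕ) : catalan n ≤ catalan (n + 1) := by
  rw [catalan_succ]
  have h := Finset.single_le_sum (f := fun i : Fin n.succ => catalan i * catalan (n - i))
    (fun i _ => Nat.zero_le _) (mem_univ (0 : Fin n.succ))
  simpa using h

theorem bet_one (α : ℕ) : bet α 1 = 1 := by simp [bet]

theorem bet_pos {α : ℕ} (hα : 1 ≤ α) (i : ℕ) : 1 ≤ bet α i := by
  unfold bet
  have h1 : 0 < (4 * α) ^ (i - 1) := by positivity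
  have h2 := catalan_pos (i - 1)
  exact Nat.succ_le_of_lt (Nat.mul_pos h1 h2)

theorem tht_pos {α : ℕ} (hα : 1 ≤ α) (i : ℕ) : 1 ≤ tht α i := by
  unfold tht
  split_ifs
  · exact le_rfl
  · exact Nat.succ_le_of_lt (Nat.mul_pos hα (bet_pos hα i))

theorem tht_of_pos {α i : ℕ} (hi : 1 ≤ i) : tht α i = α * bet α i := by
  unfold tht
  rw [if_neg (by omega)]

/-- The recursive inequality for the constants. -/
theorem bet_rec (α i : ℕ) (hi : 2 ≤ i) :
    2 * tht α (i - 1) + 2 * ∑ x ∈ Ico 1 i, bet α x * tht α (i - x) ≤ bet α i := by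
  obtain ⟨n, rfl⟩ : ∃ n, i = n + 2 := ⟨i - 2, by omega⟩
  have h1 : ∑ x ∈ Ico 1 (n + 2), bet α x * tht α (n + 2 - x) =
      α * ((4 * α) ^ n * catalan (n + 1)) := by
    rw [catalan_succ, Finset.sum_Ico_eq_sum_range, mul_sum, mul_sum,
      ← Fin.sum_univ_eq_sum_range
        (fun k => bet α (1 + k) * tht α (n + 2 - (1 + k))) (n + 2 - 1)]
    refine Finset.sum_congr rfl fun k _ => ?_
    have hk : (k : ℕ) ≤ n := by have := k.2; omega
    rw [tht_of_pos (by omega)]
    unfold bet
    have e1 : 1 + (k : ℕ) - 1 = k := by omega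
    have e2 : n + 2 - (1 + (k : ℕ)) - 1 = n - k := by omega
    rw [e1, e2]
    have e3 : (4 * α) ^ n = (4 * α) ^ (k : ℕ) * (4 * α) ^ (n - k) := by
      rw [← pow_add]; congr 1; omega
    rw [e3]
    ring
  rw [h1, tht_of_pos (by omega)]
  unfold bet
  have e1 : n + 2 - 1 = n + 1 := by omega
  have e2 : n + 1 - 1 = n := by omega
  rw [e1, e2]
  have h2 := catalan_le_succ n
  calc 2 * (α * ((4 * α) ^ n * catalan n)) + 2 * (α * ((4 * α) ^ n * catalan (n + 1)))
      ≤ 2 * (α * ((4 * α) ^ n * catalan (n + 1))) +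
        2 * (α * ((4 * α) ^ n * catalan (n + 1))) := by gcongr
    _ = (4 * α) ^ (n + 1) * catalan (n + 1) := by ring

/-! ### Set systems -/

variable {U : Type} [Fintype U] [DecidableEq U]

/-- `Z` contains no member of `𝒞`. -/
def Indep (𝒞 : Finset (Finset U)) (Z : Finset U) : Prop := ∀ C ∈ 𝒞, ¬ C ⊆ Z

instance (𝒞 : Finset (Finset U)) (Z : Finset U) : Decidable (Indep 𝒞 Z) := by
  unfold Indep; infer_instance

/-- The indicator function of `Indep`. -/
def idc (𝒞 : Finset (Finset U)) (Z : Finset U) : ℝ := if Indep 𝒞 Z then 1 else 0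

/-- The members of size `j` containing `H`. -/
def fl (𝒞 : Finset (Finset U)) (j : ℕ) (H : Finset U) : Finset (Finset U) :=
  𝒞.filter fun C => C.card = j ∧ H ⊆ C

theorem mem_fl {𝒞 : Finset (Finset U)} {j : ℕ} {H C : Finset U} :
    C ∈ fl 𝒞 j H ↔ C ∈ 𝒞 ∧ C.card = j ∧ H ⊆ C := by
  simp [fl]

/-- The system obtained by adding `P` and deleting the members of `𝒞` containing members
of `P`. -/
def add (𝒞 P : Finset (Finset U)) : Finset (Finset U) :=
  P ∪ 𝒞.filter fun C => ∀ X ∈ P, ¬ X ⊆ C

theorem mem_add {𝒞 P : Finset (Finset U)} {C : Finset U} :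
    C ∈ add 𝒞 P ↔ C ∈ P ∨ (C ∈ 𝒞 ∧ ∀ X ∈ P, ¬ X ⊆ C) := by
  simp [add]

theorem indep_add {𝒞 P : Finset (Finset U)} {Z : Finset U} :
    Indep (add 𝒞 P) Z ↔ Indep 𝒞 Z ∧ Indep P Z := by
  constructor
  · intro h
    refine ⟨fun C hC hCZ => ?_, fun X hX => h X (mem_add.2 (Or.inl hX))⟩
    by_cases h1 : ∀ X ∈ P, ¬ X ⊆ C
    · exact h C (mem_add.2 (Or.inr ⟨hC, h1⟩)) hCZ
    · push Not at h1
      obtain ⟨X, hX, hXC⟩ := h1
      exact h X (mem_add.2 (Or.inl hX)) (hXC.trans hCZ)
  · rintro ⟨h1, h2⟩ C hC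
    rcases mem_add.1 hC with h | h
    · exact h2 C h
    · exact h1 C h.1

/-- The invariant of the branching process: `𝒩` are the members of the current system `𝒞`
which have been added, `a i` is the number of sets of size `i` which have ever been added. -/
structure Inv (α t : ℕ) (𝒞 𝒩 : Finset (Finset U)) (a : ℕ → ℕ) : Prop where
  anti : ∀ C ∈ 𝒞, ∀ D ∈ 𝒞, C ⊆ D → C = D
  size : ∀ C ∈ 𝒞, 1 ≤ C.card ∧ C.card ≤ t
  sub : 𝒩 ⊆ 𝒞
  deg : ∀ i X, 1 ≤ X.card → X.card < i → (fl 𝒩 i X).card ≤ 2 * tht α (i - X.card)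
  cnt : ∀ i, a i ≤ (fl 𝒩 i ∅).card + 2 * ∑ x ∈ Ico 1 i, a x * tht α (i - x)

theorem card_fl_one (𝒞 : Finset (Finset U)) : (fl 𝒞 1 ∅).card ≤ Fintype.card U := by
  have h : fl 𝒞 1 ∅ ⊆ (univ : Finset U).image fun u => {u} := by
    intro C hC
    obtain ⟨-, h1, -⟩ := mem_fl.1 hC
    obtain ⟨u, rfl⟩ := card_eq_one.1 h1
    exact mem_image.2 ⟨u, mem_univ _, rfl⟩
  exact (card_le_card h).trans (card_image_le.trans (by simp))

theorem card_fl_le (𝒞 : Finset (Finset U)) {i B : ℕ} (hi : 1 ≤ i)
    (hB : ∀ u : U, (fl 𝒞 i {u}).card ≤ B) : (fl 𝒞 i ∅).card ≤ B * Fintype.card U := by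
  have h : fl 𝒞 i ∅ ⊆ (univ : Finset U).biUnion fun u => fl 𝒞 i {u} := by
    intro C hC
    obtain ⟨h0, h1, -⟩ := mem_fl.1 hC
    obtain ⟨u, hu⟩ := card_pos.1 (by omega : 0 < C.card)
    exact mem_biUnion.2 ⟨u, mem_univ _, mem_fl.2 ⟨h0, h1, singleton_subset_iff.2 hu⟩⟩
  calc (fl 𝒞 i ∅).card ≤ _ := card_le_card h
    _ ≤ ∑ u : U, (fl 𝒞 i {u}).card := card_biUnion_le
    _ ≤ ∑ _u : U, B := sum_le_sum fun u _ => hB u
    _ = B * Fintype.card U := by simp [mul_comm]

/-- The number of sets of size `i` ever added is bounded. -/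
theorem Inv.le {α t : ℕ} {𝒞 𝒩 : Finset (Finset U)} {a : ℕ → ℕ} (h : Inv α t 𝒞 𝒩 a) :
    ∀ i, 1 ≤ i → a i ≤ bet α i * Fintype.card U := by
  intro i
  induction i using Nat.strong_induction_on with
  | _ i ih =>
    intro hi
    rcases Nat.lt_or_ge i 2 with h1 | h1
    · have : i = 1 := by omega
      subst this
      have h2 := h.cnt 1
      simp only [Ico_self, sum_empty, mul_zero, add_zero] at h2
      rw [bet_one, one_mul]
      exact h2.trans (card_fl_one _)
    · have h2 := h.cnt i
      have h3 : (fl 𝒩 i ∅).card ≤ 2 * tht α (i - 1) * Fintype.card U :=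
        card_fl_le 𝒩 hi fun u => by
          have := h.deg i {u} (by simp) (by simp; omega)
          simpa using this
      have h4 : ∑ x ∈ Ico 1 i, a x * tht α (i - x) ≤
          ∑ x ∈ Ico 1 i, bet α x * Fintype.card U * tht α (i - x) := by
        refine sum_le_sum fun x hx => ?_
        rw [mem_Ico] at hx
        exact Nat.mul_le_mul_right _ (ih x hx.2 hx.1)
      have h5 : ∑ x ∈ Ico 1 i, bet α x * Fintype.card U * tht α (i - x) =
          (∑ x ∈ Ico 1 i, bet α x * tht α (i - x)) * Fintype.card U := by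
        rw [sum_mul]
        exact sum_congr rfl fun x _ => by ring
      have h6 := Nat.mul_le_mul_right (Fintype.card U) (bet_rec α i h1)
      rw [h5] at h4
      calc a i ≤ 2 * tht α (i - 1) * Fintype.card U +
            2 * ((∑ x ∈ Ico 1 i, bet α x * tht α (i - x)) * Fintype.card U) := by omega
        _ = (2 * tht α (i - 1) + 2 * ∑ x ∈ Ico 1 i, bet α x * tht α (i - x)) *
            Fintype.card U := by ring
        _ ≤ _ := h6

/-- Adding a set of new sets of size `i` preserves the invariant. -/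
theorem Inv.add {α t : ℕ} {𝒞 𝒩 : Finset (Finset U)} {a : ℕ → ℕ} (h : Inv α t 𝒞 𝒩 a)
    {P : Finset (Finset U)} {i : ℕ} (hi : 1 ≤ i) (hit : i ≤ t) (hP : ∀ X ∈ P, X.card = i)
    (hnew : ∀ X ∈ P, ∀ C ∈ 𝒞, ¬ C ⊆ X)
    (hdeg : ∀ X, 1 ≤ X.card → X.card < i →
      (fl 𝒩 i X).card + (P.filter (X ⊆ ·)).card ≤ 2 * tht α (i - X.card)) :
    Inv α t (add 𝒞 P) (add 𝒩 P) (Function.update a i (a i + P.card)) := by
  have hnewN : ∀ X ∈ P, ∀ C ∈ 𝒩, ¬ C ⊆ X := fun X hX C hC => hnew X hX C (h.sub hC)
  refine ⟨?_, ?_, ?_, ?_, ?_⟩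
  · intro C hC D hD hCD
    rcases mem_add.1 hC with h1 | h1 <;> rcases mem_add.1 hD with h2 | h2
    · exact eq_of_subset_of_card_le hCD (by rw [hP _ h1, hP _ h2])
    · exact absurd hCD (h2.2 C h1)
    · exact absurd hCD (hnew D h2 C h1.1)
    · exact h.anti C h1.1 D h2.1 hCD
  · intro C hC
    rcases mem_add.1 hC with h1 | h1
    · rw [hP _ h1]; exact ⟨hi, hit⟩
    · exact h.size C h1.1
  · intro C hC
    rcases mem_add.1 hC with h1 | h1
    · exact mem_add.2 (Or.inl h1)
    · exact mem_add.2 (Or.inr ⟨h.sub h1.1, h1.2⟩)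
  · intro i' X hX hXi
    by_cases hii : i' = i
    · subst hii
      refine le_trans ?_ (hdeg X hX hXi)
      refine le_trans (card_le_card (t := fl 𝒩 i' X ∪ P.filter (X ⊆ ·)) ?_) (card_union_le _ _)
      intro C hC
      obtain ⟨h0, h1, h2⟩ := mem_fl.1 hC
      rcases mem_add.1 h0 with h3 | h3
      · exact mem_union_right _ (mem_filter.2 ⟨h3, h2⟩)
      · exact mem_union_left _ (mem_fl.2 ⟨h3.1, h1, h2⟩)
    · refine le_trans (card_le_card ?_) (h.deg i' X hX hXi)
      intro C hC
      obtain ⟨h0, h1, h2⟩ := mem_fl.1 hC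
      rcases mem_add.1 h0 with h3 | h3
      · exact absurd (h1.symm.trans (hP _ h3)) hii
      · exact mem_fl.2 ⟨h3.1, h1, h2⟩
  · intro i'
    have hPN : ∀ X ∈ P, X ∉ 𝒩 := fun X hX hXN => hnewN X hX X hXN Subset.rfl
    rcases lt_trichotomy i' i with hlt | rfl | hgt
    · -- smaller sizes: nothing changes
      rw [Function.update_of_ne (by omega)]
      have h1 : ∑ x ∈ Ico 1 i', Function.update a i (a i + P.card) x * tht α (i' - x) =
          ∑ x ∈ Ico 1 i', a x * tht α (i' - x) := by
        refine sum_congr rfl fun x hx => ?_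
        rw [mem_Ico] at hx
        rw [Function.update_of_ne (by omega)]
      rw [h1]
      refine (h.cnt i').trans (Nat.add_le_add_right (card_le_card ?_) _)
      intro C hC
      obtain ⟨h0, h1, h2⟩ := mem_fl.1 hC
      refine mem_fl.2 ⟨mem_add.2 (Or.inr ⟨h0, fun X hX hXC => ?_⟩), h1, h2⟩
      have := card_le_card hXC
      rw [hP X hX] at this
      omega
    · -- the size itself
      rw [Function.update_self]
      have h1 : ∑ x ∈ Ico 1 i', Function.update a i' (a i' + P.card) x * tht α (i' - x) =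
          ∑ x ∈ Ico 1 i', a x * tht α (i' - x) := by
        refine sum_congr rfl fun x hx => ?_
        rw [mem_Ico] at hx
        rw [Function.update_of_ne (by omega)]
      rw [h1]
      have h2 : fl 𝒩 i' ∅ ∪ P ⊆ fl (Sparse.add 𝒩 P) i' ∅ := by
        intro C hC
        rcases mem_union.1 hC with h3 | h3
        · obtain ⟨h0, h1, h2⟩ := mem_fl.1 h3
          refine mem_fl.2 ⟨mem_add.2 (Or.inr ⟨h0, fun X hX hXC => ?_⟩), h1, h2⟩
          have h5 := eq_of_subset_of_card_le hXC (by rw [h1, hP X hX])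
          exact hPN X hX (h5 ▸ h0)
        · exact mem_fl.2 ⟨mem_add.2 (Or.inl h3), hP C h3, empty_subset _⟩
      have h3 : Disjoint (fl 𝒩 i' ∅) P := by
        rw [Finset.disjoint_left]
        intro C hC hCP
        exact hPN C hCP (mem_fl.1 hC).1
      have h4 := card_le_card h2
      rw [card_union_of_disjoint h3] at h4
      have h5 := h.cnt i'
      omega
    · -- larger sizes
      rw [Function.update_of_ne (by omega)]
      have h1 : ∑ x ∈ Ico 1 i', Function.update a i (a i + P.card) x * tht α (i' - x) =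
          (∑ x ∈ Ico 1 i', a x * tht α (i' - x)) + P.card * tht α (i' - i) := by
        have hmem : i ∈ Ico 1 i' := mem_Ico.2 ⟨hi, hgt⟩
        rw [← add_sum_erase _ (fun x => Function.update a i (a i + P.card) x * tht α (i' - x)) hmem,
          ← add_sum_erase _ (fun x => a x * tht α (i' - x)) hmem]
        simp only [Function.update_self]
        have h2 : ∑ x ∈ (Ico 1 i').erase i,
            Function.update a i (a i + P.card) x * tht α (i' - x) =
            ∑ x ∈ (Ico 1 i').erase i, a x * tht α (i' - x) := by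
          refine sum_congr rfl fun x hx => ?_
          rw [Function.update_of_ne (ne_of_mem_erase hx)]
        rw [h2]
        ring
      rw [h1]
      have h2 : fl 𝒩 i' ∅ ⊆ fl (Sparse.add 𝒩 P) i' ∅ ∪ P.biUnion fun X => fl 𝒩 i' X := by
        intro C hC
        obtain ⟨h0, h1, h2⟩ := mem_fl.1 hC
        by_cases h3 : ∀ X ∈ P, ¬ X ⊆ C
        · exact mem_union_left _ (mem_fl.2 ⟨mem_add.2 (Or.inr ⟨h0, h3⟩), h1, h2⟩)
        · push Not at h3
          obtain ⟨X, hX, hXC⟩ := h3
          exact mem_union_right _ (mem_biUnion.2 ⟨X, hX, mem_fl.2 ⟨h0, h1, hXC⟩⟩)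
      have h3 : (P.biUnion fun X => fl 𝒩 i' X).card ≤ P.card * (2 * tht α (i' - i)) := by
        refine card_biUnion_le.trans ?_
        rw [← smul_eq_mul, ← Finset.sum_const]
        refine sum_le_sum fun X hX => ?_
        have := h.deg i' X (by rw [hP X hX]; exact hi) (by rw [hP X hX]; exact hgt)
        rwa [hP X hX] at this
      have h4 := (card_le_card h2).trans (card_union_le _ _)
      have h5 := h.cnt i'
      calc a i' ≤ (fl 𝒩 i' ∅).card + 2 * ∑ x ∈ Ico 1 i', a x * tht α (i' - x) := h5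
        _ ≤ ((fl (Sparse.add 𝒩 P) i' ∅).card + P.card * (2 * tht α (i' - i))) +
            2 * ∑ x ∈ Ico 1 i', a x * tht α (i' - x) := by omega
        _ = _ := by ring


/-! ### The branching process -/

/-- `(j, H)` is a flower. -/
def Flower (α : ℕ) (𝒞 : Finset (Finset U)) (j : ℕ) (H : Finset U) : Prop :=
  1 ≤ H.card ∧ H.card < j ∧ tht α (j - H.card) ≤ (fl 𝒞 j H).card

/-- The list of pieces is a partition of the independent sets of `𝒞`. -/
def Parts (𝒞 : Finset (Finset U)) (L : List (Finset U × Finset (Finset U))) : Prop :=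
  ∀ Z, idc 𝒞 Z = (L.map fun p => if p.1 ⊆ Z then idc p.2 Z else 0).sum

/-- The pieces are sparse. -/
def Sparse (α t : ℕ) (L : List (Finset U × Finset (Finset U))) : Prop :=
  ∀ p ∈ L, (∀ D ∈ p.2, 1 ≤ D.card ∧ D.card ≤ t) ∧
    p.2.card ≤ (∑ j ∈ range t, tht α j) * Fintype.card U

theorem parts_self (𝒞 : Finset (Finset U)) : Parts 𝒞 [(∅, 𝒞)] := by
  intro Z
  simp

/-- Branching. -/
theorem parts_branch {𝒞 : Finset (Finset U)} {j : ℕ} {H : Finset U}
    {L₁ L₂ : List (Finset U × Finset (Finset U))}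
    (h₁ : Parts (add 𝒞 {H}) L₁)
    (h₂ : Parts (add 𝒞 ((fl 𝒞 j H).image (· \ H))) L₂) :
    Parts 𝒞 (L₁ ++ L₂.map fun p => (H ∪ p.1, p.2)) := by
  intro Z
  rw [List.map_append, List.sum_append, ← h₁ Z, List.map_map]
  by_cases hHZ : H ⊆ Z
  · have e1 : idc (add 𝒞 {H}) Z = 0 := by
      unfold idc
      rw [if_neg]
      rw [indep_add]
      rintro ⟨-, h⟩
      exact h H (mem_singleton_self H) hHZ
    have e2 : idc 𝒞 Z = idc (add 𝒞 ((fl 𝒞 j H).image (· \ H))) Z := by
      unfold idc
      congr 1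
      rw [indep_add, eq_iff_iff]
      constructor
      · intro h
        refine ⟨h, fun X hX hXZ => ?_⟩
        obtain ⟨C, hC, rfl⟩ := mem_image.1 hX
        refine h C (mem_fl.1 hC).1 ?_
        intro u hu
        by_cases huH : u ∈ H
        · exact hHZ huH
        · exact hXZ (mem_sdiff.2 ⟨hu, huH⟩)
      · exact fun h => h.1
    rw [e1, zero_add, e2, h₂ Z]
    congr 1
    refine List.map_congr_left fun p _ => ?_
    simp only [Function.comp_apply, union_subset_iff, hHZ, true_and]
  · have e1 : idc (add 𝒞 {H}) Z = idc 𝒞 Z := by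
      unfold idc
      congr 1
      rw [indep_add, eq_iff_iff]
      constructor
      · exact fun h => h.1
      · intro h
        refine ⟨h, fun X hX hXZ => ?_⟩
        rw [mem_singleton.1 hX] at hXZ
        exact hHZ hXZ
    have e2 : (L₂.map ((fun p : Finset U × Finset (Finset U) =>
        if p.1 ⊆ Z then idc p.2 Z else 0) ∘ fun p => (H ∪ p.1, p.2))).sum = 0 := by
      refine List.sum_eq_zero fun x hx => ?_
      obtain ⟨p, -, rfl⟩ := List.mem_map.1 hx
      simp only [Function.comp_apply, union_subset_iff, hHZ, false_and, if_false]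
    rw [e1, e2, add_zero]

/-- A system without flowers is sparse. -/
theorem card_le_of_no_flower {α t : ℕ} {𝒞 : Finset (Finset U)}
    (hsize : ∀ C ∈ 𝒞, 1 ≤ C.card ∧ C.card ≤ t) (hno : ∀ j H, ¬ Flower α 𝒞 j H) :
    𝒞.card ≤ (∑ j ∈ range t, tht α j) * Fintype.card U := by
  have h1 : 𝒞 ⊆ (range t).biUnion fun j => fl 𝒞 (j + 1) ∅ := by
    intro C hC
    obtain ⟨h1, h2⟩ := hsize C hC
    exact mem_biUnion.2 ⟨C.card - 1, mem_range.2 (by omega),
      mem_fl.2 ⟨hC, by omega, empty_subset _⟩⟩
  calc 𝒞.card ≤ _ := card_le_card h1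
    _ ≤ ∑ j ∈ range t, (fl 𝒞 (j + 1) ∅).card := card_biUnion_le
    _ ≤ ∑ j ∈ range t, tht α j * Fintype.card U := by
        refine sum_le_sum fun j _ => ?_
        rcases Nat.eq_zero_or_pos j with rfl | hj
        · simpa [tht] using card_fl_one 𝒞
        · refine card_fl_le 𝒞 (by omega) fun u => ?_
          by_contra h2
          refine hno (j + 1) {u} ⟨by simp, by simp; omega, ?_⟩
          have : j + 1 - ({u} : Finset U).card = j := by simp
          rw [this]
          omega
    _ = _ := by rw [sum_mul]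

/-- The potential. -/
noncomputable def pot (α t : ℕ) (w : ℕ → ℝ) (n : ℕ) (a : ℕ → ℕ) : ℝ :=
  ∑ i ∈ Ico 1 t, w i * ((bet α i : ℝ) * n - a i)

theorem pot_update {α t : ℕ} {w : ℕ → ℝ} {n : ℕ} {a : ℕ → ℕ} {i : ℕ} (hi : i ∈ Ico 1 t)
    (c : ℕ) : pot α t w n (Function.update a i (a i + c)) = pot α t w n a - w i * c := by
  unfold pot
  rw [← add_sum_erase _ (fun x => w x * ((bet α x : ℝ) * n -
      ((Function.update a i (a i + c)) x : ℕ))) hi,
    ← add_sum_erase _ (fun x => w x * ((bet α x : ℝ) * n - (a x : ℕ))) hi]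
  have h : ∑ x ∈ (Ico 1 t).erase i, w x * ((bet α x : ℝ) * n -
      ((Function.update a i (a i + c)) x : ℕ)) =
      ∑ x ∈ (Ico 1 t).erase i, w x * ((bet α x : ℝ) * n - (a x : ℕ)) := by
    refine sum_congr rfl fun x hx => ?_
    rw [Function.update_of_ne (ne_of_mem_erase hx)]
  rw [h]
  simp only [Function.update_self]
  push_cast
  ring

theorem exists_flower {α : ℕ} {𝒞 : Finset (Finset U)} (h : ∃ j H, Flower α 𝒞 j H) :
    ∃ j H, Flower α 𝒞 j H ∧ (∀ c < j, ∀ X, ¬ Flower α 𝒞 c X) ∧
      ∀ X : Finset U, H.card < X.card → ¬ Flower α 𝒞 j X := by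
  classical
  have h1 := Nat.find_spec h
  obtain ⟨H0, hH0⟩ := h1
  obtain ⟨H, hH, hmax⟩ := exists_max_image
    (univ.filter fun X : Finset U => Flower α 𝒞 (Nat.find h) X) Finset.card
    ⟨H0, mem_filter.2 ⟨mem_univ _, hH0⟩⟩
  refine ⟨Nat.find h, H, (mem_filter.1 hH).2, fun c hc X hX => Nat.find_min h hc ⟨X, hX⟩,
    fun X hX hXf => ?_⟩
  have := hmax X (mem_filter.2 ⟨mem_univ _, hXf⟩)
  omega

/-- The number of new sets in the second branch. -/
theorem card_petals (𝒞 : Finset (Finset U)) (j : ℕ) (H : Finset U) :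
    ((fl 𝒞 j H).image (· \ H)).card = (fl 𝒞 j H).card := by
  refine card_image_of_injOn fun C hC D hD h => ?_
  have h1 := (mem_fl.1 hC).2.2
  have h2 := (mem_fl.1 hD).2.2
  have h3 : C \ H = D \ H := h
  rw [← sdiff_union_of_subset h1, ← sdiff_union_of_subset h2, h3]

theorem sum_update_lt {α t n : ℕ} {a : ℕ → ℕ} {i c : ℕ} (hi : i ∈ Ico 1 t) (hc : 1 ≤ c)
    (hle : a i + c ≤ bet α i * n) :
    ∑ x ∈ Ico 1 t, (bet α x * n - Function.update a i (a i + c) x) <
      ∑ x ∈ Ico 1 t, (bet α x * n - a x) := by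
  refine sum_lt_sum (fun x _ => ?_) ⟨i, hi, ?_⟩
  · by_cases hx : x = i
    · subst hx
      rw [Function.update_self]
      omega
    · rw [Function.update_of_ne hx]
  · rw [Function.update_self]
    omega

theorem main_aux {α t : ℕ} (hα : 1 ≤ α) (w : ℕ → ℝ) (hw : ∀ i ∈ Ico 1 t, 0 ≤ w i)
    (hww : ∀ i ∈ Ico 1 t, ∀ h ∈ Ico 1 t,
      Real.exp (- w h) + Real.exp (- (w i * tht α i)) ≤ 1) :
    ∀ (m : ℕ) (𝒞 𝒩 : Finset (Finset U)) (a : ℕ → ℕ), Inv α t 𝒞 𝒩 a →
      ∑ i ∈ Ico 1 t, (bet α i * Fintype.card U - a i) = m →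
      ∃ L, Parts 𝒞 L ∧ Sparse α t L ∧
        (L.length : ℝ) ≤ Real.exp (pot α t w (Fintype.card U) a) := by
  intro m
  induction m using Nat.strong_induction_on with
  | _ m ih =>
    intro 𝒞 𝒩 a hI hm
    by_cases hfl : ∃ j H, Flower α 𝒞 j H
    · obtain ⟨j, H, ⟨hH1, hHj, hbig⟩, hmin, hmax⟩ := exists_flower hfl
      -- the degree bounds
      have hd1 : ∀ c < j, ∀ X : Finset U, 1 ≤ X.card → X.card < c →
          (fl 𝒞 c X).card < tht α (c - X.card) := by
        intro c hc X hX1 hX2
        by_contra h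
        exact hmin c hc X ⟨hX1, hX2, not_lt.1 h⟩
      have hd2 : ∀ X : Finset U, H.card < X.card → X.card < j →
          (fl 𝒞 j X).card < tht α (j - X.card) := by
        intro X hX1 hX2
        by_contra h
        exact hmax X hX1 ⟨by omega, hX2, not_lt.1 h⟩
      have hNC : ∀ c X, (fl 𝒩 c X).card ≤ (fl 𝒞 c X).card := by
        intro c X
        refine card_le_card fun C hC => ?_
        rw [mem_fl] at hC ⊢
        exact ⟨hI.sub hC.1, hC.2⟩
      obtain ⟨C0, hC0⟩ := card_pos.1 (lt_of_lt_of_le (tht_pos hα _) hbig)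
      obtain ⟨hC0C, hC0j, hHC0⟩ := mem_fl.1 hC0
      have hjt : j ≤ t := hC0j ▸ (hI.size C0 hC0C).2
      have hmemh : H.card ∈ Ico 1 t := mem_Ico.2 ⟨hH1, by omega⟩
      have hmemi : j - H.card ∈ Ico 1 t := mem_Ico.2 ⟨by omega, by omega⟩
      -- the first branch
      have hI1 : Inv α t (add 𝒞 {H}) (add 𝒩 {H})
          (Function.update a H.card (a H.card + ({H} : Finset (Finset U)).card)) := by
        refine hI.add hH1 (by omega) (fun X hX => by rw [mem_singleton.1 hX]) ?_ ?_
        · intro X hX C hC hCX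
          rw [mem_singleton.1 hX] at hCX
          have h1 := hI.anti C hC C0 hC0C (hCX.trans hHC0)
          have h2 := card_le_card hCX
          rw [h1, hC0j] at h2
          omega
        · intro X hX1 hX2
          have h1 := hd1 H.card hHj X hX1 hX2
          have h2 := hNC H.card X
          have h3 : (({H} : Finset (Finset U)).filter (X ⊆ ·)).card ≤ 1 :=
            (card_filter_le _ _).trans (by simp)
          have h4 := tht_pos hα (H.card - X.card)
          omega
      -- the second branch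
      set P : Finset (Finset U) := (fl 𝒞 j H).image (· \ H) with hP
      have hPc : P.card = (fl 𝒞 j H).card := card_petals 𝒞 j H
      have hI2 : Inv α t (add 𝒞 P) (add 𝒩 P)
          (Function.update a (j - H.card) (a (j - H.card) + P.card)) := by
        refine hI.add (by omega) (by omega) ?_ ?_ ?_
        · intro X hX
          obtain ⟨C, hC, rfl⟩ := mem_image.1 hX
          obtain ⟨-, h1, h2⟩ := mem_fl.1 hC
          rw [card_sdiff_of_subset h2, h1]
        · intro X hX D hD hDX
          obtain ⟨C, hC, rfl⟩ := mem_image.1 hX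
          obtain ⟨h0, h1, h2⟩ := mem_fl.1 hC
          have h3 : D = C := hI.anti D hD C h0 (hDX.trans sdiff_subset)
          rw [h3] at hDX
          obtain ⟨u, hu⟩ := card_pos.1 (by omega : 0 < H.card)
          exact (mem_sdiff.1 (hDX (h2 hu))).2 hu
        · intro X hX1 hX2
          have h1 := hd1 (j - H.card) (by omega) X hX1 hX2
          have h2 := hNC (j - H.card) X
          have h3 : (P.filter (X ⊆ ·)).card < tht α (j - H.card - X.card) := by
            by_cases hdis : Disjoint H X
            · have h4 : P.filter (X ⊆ ·) ⊆ (fl 𝒞 j (H ∪ X)).image (· \ H) := by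
                intro Y hY
                obtain ⟨h5, h6⟩ := mem_filter.1 hY
                obtain ⟨C, hC, rfl⟩ := mem_image.1 h5
                obtain ⟨h7, h8, h9⟩ := mem_fl.1 hC
                exact mem_image.2 ⟨C, mem_fl.2 ⟨h7, h8,
                  union_subset h9 (h6.trans sdiff_subset)⟩, rfl⟩
              have h5 : (H ∪ X).card = H.card + X.card := card_union_of_disjoint hdis
              have h6 := hd2 (H ∪ X) (by omega) (by omega)
              have h7 := (card_le_card h4).trans card_image_le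
              rw [h5] at h6
              have h8 : j - (H.card + X.card) = j - H.card - X.card := by omega
              rw [h8] at h6
              omega
            · have h4 : P.filter (X ⊆ ·) = ∅ := by
                rw [filter_eq_empty_iff]
                intro Y hY hXY
                obtain ⟨C, hC, rfl⟩ := mem_image.1 hY
                refine hdis (Finset.disjoint_left.2 fun u hu huX => ?_)
                exact (mem_sdiff.1 (hXY huX)).2 hu
              rw [h4, card_empty]
              exact tht_pos hα _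
          omega
      have hPpos : 1 ≤ P.card := by
        rw [hPc]; exact (tht_pos hα _).trans hbig
      have hle1 := hI1.le H.card hH1
      have hle2 := hI2.le (j - H.card) (by omega)
      rw [Function.update_self] at hle1 hle2
      have hlt1 := sum_update_lt (α := α) hmemh (by simp) hle1
      have hlt2 := sum_update_lt (α := α) hmemi hPpos hle2
      rw [hm] at hlt1 hlt2
      obtain ⟨L₁, hp1, hs1, hl1⟩ := ih _ hlt1 _ _ _ hI1 rfl
      obtain ⟨L₂, hp2, hs2, hl2⟩ := ih _ hlt2 _ _ _ hI2 rfl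
      refine ⟨L₁ ++ L₂.map fun p => (H ∪ p.1, p.2), parts_branch hp1 hp2, ?_, ?_⟩
      · intro p hp
        rcases List.mem_append.1 hp with h | h
        · exact hs1 p h
        · obtain ⟨q, hq, rfl⟩ := List.mem_map.1 h
          exact hs2 q hq
      · rw [List.length_append, List.length_map]
        push_cast
        rw [pot_update hmemh] at hl1
        rw [pot_update hmemi] at hl2
        have h1 : Real.exp (pot α t w (Fintype.card U) a -
            w H.card * (({H} : Finset (Finset U)).card : ℕ)) =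
            Real.exp (pot α t w (Fintype.card U) a) * Real.exp (- w H.card) := by
          rw [← Real.exp_add, card_singleton]
          congr 1
          push_cast
          ring
        have h2 : Real.exp (pot α t w (Fintype.card U) a - w (j - H.card) * (P.card : ℕ)) ≤
            Real.exp (pot α t w (Fintype.card U) a) *
              Real.exp (- (w (j - H.card) * tht α (j - H.card))) := by
          rw [← Real.exp_add, Real.exp_le_exp]
          have h3 : (tht α (j - H.card) : ℝ) ≤ (P.card : ℕ) := by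
            rw [hPc]; exact_mod_cast hbig
          have h4 := mul_le_mul_of_nonneg_left h3 (hw _ hmemi)
          linarith
        have h3 := hww _ hmemi _ hmemh
        have h4 := Real.exp_pos (pot α t w (Fintype.card U) a)
        rw [h1] at hl1
        calc (L₁.length : ℝ) + L₂.length ≤
              Real.exp (pot α t w (Fintype.card U) a) * Real.exp (- w H.card) +
              Real.exp (pot α t w (Fintype.card U) a) *
                Real.exp (- (w (j - H.card) * tht α (j - H.card))) :=
              add_le_add hl1 (hl2.trans h2)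
          _ = Real.exp (pot α t w (Fintype.card U) a) * (Real.exp (- w H.card) +
                Real.exp (- (w (j - H.card) * tht α (j - H.card)))) := by ring
          _ ≤ Real.exp (pot α t w (Fintype.card U) a) * 1 :=
              mul_le_mul_of_nonneg_left h3 h4.le
          _ = _ := mul_one _
    · push Not at hfl
      refine ⟨[(∅, 𝒞)], parts_self 𝒞, ?_, ?_⟩
      · intro p hp
        rw [List.mem_singleton] at hp
        subst hp
        exact ⟨hI.size, card_le_of_no_flower hI.size hfl⟩
      · have h1 : 0 ≤ pot α t w (Fintype.card U) a := by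
          refine sum_nonneg fun i hi => mul_nonneg (hw i hi) ?_
          have h2 := hI.le i (mem_Ico.1 hi).1
          have h3 : (a i : ℝ) ≤ (bet α i : ℝ) * Fintype.card U := by exact_mod_cast h2
          linarith
        simpa using Real.one_le_exp h1

/-- The minimal members. -/
def mins (𝒞 : Finset (Finset U)) : Finset (Finset U) :=
  𝒞.filter fun C => ∀ D ∈ 𝒞, D ⊆ C → D = C

theorem idc_mins (𝒞 : Finset (Finset U)) (Z : Finset U) : idc (mins 𝒞) Z = idc 𝒞 Z := by
  unfold idc
  congr 1
  rw [eq_iff_iff]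
  constructor
  · intro h C hC hCZ
    obtain ⟨D, hD, hmin⟩ := exists_min_image (𝒞.filter (· ⊆ C)) Finset.card
      ⟨C, mem_filter.2 ⟨hC, Subset.rfl⟩⟩
    rw [mem_filter] at hD
    refine h D (mem_filter.2 ⟨hD.1, fun E hE hED => ?_⟩) (hD.2.trans hCZ)
    exact eq_of_subset_of_card_le hED (hmin E (mem_filter.2 ⟨hE, hED.trans hD.2⟩))
  · exact fun h C hC => h C (mem_filter.1 hC).1

/-- **Sparsification of set systems**, with general weights. -/
theorem sparsify_weights {α t : ℕ} (hα : 1 ≤ α) (w : ℕ → ℝ) (hw : ∀ i ∈ Ico 1 t, 0 ≤ w i)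
    (hww : ∀ i ∈ Ico 1 t, ∀ h ∈ Ico 1 t,
      Real.exp (- w h) + Real.exp (- (w i * tht α i)) ≤ 1)
    (𝒞 : Finset (Finset U)) (h𝒞 : ∀ C ∈ 𝒞, 1 ≤ C.card ∧ C.card ≤ t) :
    ∃ L, Parts 𝒞 L ∧ Sparse α t L ∧
      (L.length : ℝ) ≤ Real.exp (∑ i ∈ Ico 1 t, w i * bet α i * Fintype.card U) := by
  have hI : Inv α t (mins 𝒞) ∅ (fun _ => 0) := by
    refine ⟨?_, fun C hC => h𝒞 C (mem_filter.1 hC).1, empty_subset _, ?_, ?_⟩
    · intro C hC D hD hCD
      exact (mem_filter.1 hD).2 C (mem_filter.1 hC).1 hCD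
    · intro i X _ _
      simp [fl]
    · intro i
      exact Nat.zero_le _
  obtain ⟨L, h1, h2, h3⟩ := main_aux hα w hw hww _ _ _ _ hI rfl
  refine ⟨L, fun Z => ?_, h2, ?_⟩
  · rw [← idc_mins]; exact h1 Z
  · refine h3.trans (Real.exp_le_exp.2 (le_of_eq ?_))
    unfold pot
    refine sum_congr rfl fun i _ => ?_
    push_cast
    ring

end Vale.Agent.P336.Sparse
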