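import Vale.Agent.P336.H52.Hyper

/-!
# P336: sparsification of set systems, with explicit constants (helper52)
-/

set_option linter.unusedSectionVars false

namespace Vale.Agent.P336.Sparse

open Finset

theorem catalan_le_four_pow (n : ℕ) : catalan n ≤ 4 ^ n := by
  rw [catalan_eq_centralBinom_div]
  calc Nat.centralBinom n / (n + 1) ≤ Nat.centralBinom n := Nat.div_le_self _ _
    _ ≤ 2 ^ (2 * n) := by
      rw [Nat.centralBinom]; exact Nat.choose_le_two_pow _ _
    _ = 4 ^ n := by rw [pow_mul]; norm_num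

theorem bet_le (α i : ℕ) : bet α i ≤ (16 * α) ^ (i - 1) := by
  unfold bet
  calc (4 * α) ^ (i - 1) * catalan (i - 1) ≤ (4 * α) ^ (i - 1) * 4 ^ (i - 1) :=
        Nat.mul_le_mul_left _ (catalan_le_four_pow _)
    _ = (16 * α) ^ (i - 1) := by rw [← mul_pow]; congr 1; ring

theorem sum_tht_le {α : ℕ} (hα : 1 ≤ α) (t : ℕ) :
    ∑ j ∈ range (t + 1), tht α j ≤ (16 * α) ^ t := by
  induction t with
  | zero => simp [tht]
  | succ t ih =>
    rw [sum_range_succ, tht_of_pos (by omega)]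
    have h1 := bet_le α (t + 1)
    rw [Nat.add_sub_cancel] at h1
    calc ∑ j ∈ range (t + 1), tht α j + α * bet α (t + 1)
        ≤ (16 * α) ^ t + α * (16 * α) ^ t := add_le_add ih (Nat.mul_le_mul_left _ h1)
      _ = (1 + α) * (16 * α) ^ t := by ring
      _ ≤ (16 * α) * (16 * α) ^ t := Nat.mul_le_mul_right _ (by omega)
      _ = (16 * α) ^ (t + 1) := by ring

/-- The numerical inequality. -/
theorem num_ineq {t : ℕ} (h : 2 ≤ t) :
    8 * 64 * t * (256 * 64 * t ^ 3) ^ (t - 2) ≤ 2 ^ (8 * t ^ 2) := by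
  · obtain ⟨s, rfl⟩ : ∃ s, t = s + 2 := ⟨t - 2, by omega⟩
    have h1 : s + 2 ≤ 2 ^ (s + 2) := Nat.lt_two_pow_self.le
    rw [Nat.add_sub_cancel]
    calc 8 * 64 * (s + 2) * (256 * 64 * (s + 2) ^ 3) ^ s
        ≤ 8 * 64 * 2 ^ (s + 2) * (256 * 64 * (2 ^ (s + 2)) ^ 3) ^ s := by gcongr
      _ = 2 ^ (9 + (s + 2) + (14 + (s + 2) * 3) * s) := by
          rw [show (8 * 64 : ℕ) = 2 ^ 9 by norm_num, show (256 * 64 : ℕ) = 2 ^ 14 by norm_num,
            ← pow_mul, ← pow_add, ← pow_add, ← pow_mul, ← pow_add]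
      _ ≤ 2 ^ (8 * (s + 2) ^ 2) := by
          refine Nat.pow_le_pow_right (by norm_num) ?_
          nlinarith

theorem num_ineq_of_le {R : ℕ} (hR : R ≤ 64) {t : ℕ} (h : 2 ≤ t) :
    8 * R * t * (256 * R * t ^ 3) ^ (t - 2) ≤ 2 ^ (8 * t ^ 2) := by
  refine le_trans ?_ (num_ineq h)
  gcongr

variable {U : Type} [Fintype U] [DecidableEq U]

/-- **Sparsification of set systems**: the independent sets of a system of sets of size at
most `t` are partitioned into at most `2^(|U|/(2R))` classes. -/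
theorem sparsify_num {R t : ℕ} (hR0 : 1 ≤ R) (hR : R ≤ 64) (ht : 1 ≤ t) (𝒞 : Finset (Finset U))
    (h𝒞 : ∀ C ∈ 𝒞, 1 ≤ C.card ∧ C.card ≤ t) :
    ∃ L : List (Finset U × Finset (Finset U)), Parts 𝒞 L ∧
      (∀ p ∈ L, (∀ D ∈ p.2, 1 ≤ D.card ∧ D.card ≤ t) ∧
        p.2.card ≤ (256 * R * t ^ 3) ^ (t - 1) * Fintype.card U) ∧
      (L.length : ℝ) ≤ Real.exp (Real.log 2 / (2 * R) * Fintype.card U) := by
  set α : ℕ := 16 * R * t ^ 3 with hαdef
  have hRr : (1 : ℝ) ≤ R := by exact_mod_cast hR0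
  have ht0 : (0 : ℝ) < t := by exact_mod_cast ht
  have hα : 1 ≤ α := by
    have h1 : 1 ≤ t ^ 3 := Nat.one_le_pow _ _ ht
    have h2 : 1 ≤ 16 * R := by omega
    exact Nat.mul_pos h2 h1
  have hbpos : ∀ i, (0 : ℝ) < bet α i := fun i => by
    exact_mod_cast Nat.lt_of_lt_of_le Nat.zero_lt_one (bet_pos hα i)
  have hlog : 0 < Real.log 2 := Real.log_pos (by norm_num)
  have hlog1 : (1 : ℝ) / 2 ≤ Real.log 2 := by
    have := Real.log_two_gt_d9; linarith
  have hlog2 : Real.log 2 ≤ 1 := by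
    have := Real.log_two_lt_d9; linarith
  set ε : ℝ := Real.log 2 / (2 * R) with hε
  have hε0 : 0 < ε := by positivity
  let w : ℕ → ℝ := fun i => ε / (t * bet α i)
  have hw : ∀ i ∈ Ico 1 t, 0 ≤ w i := fun i _ => by
    have := hbpos i
    positivity
  have hww : ∀ i ∈ Ico 1 t, ∀ h ∈ Ico 1 t,
      Real.exp (- w h) + Real.exp (- (w i * tht α i)) ≤ 1 := by
    intro i hi h hh
    rw [mem_Ico] at hi hh
    have e1 : w i * tht α i = Real.log 2 * (8 * t ^ 2) := by
      rw [tht_of_pos hi.1]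
      simp only [w, hε]
      have h7 := (hbpos i).ne'
      have h8 : (α : ℝ) = 16 * R * t ^ 3 := by rw [hαdef]; push_cast; ring
      push_cast
      rw [h8]
      generalize (bet α i : ℝ) = b at h7 ⊢
      field_simp
      norm_num
    have e2 : Real.exp (- (w i * tht α i)) = 1 / 2 ^ (8 * t ^ 2) := by
      rw [e1, Real.exp_neg, Real.exp_mul, Real.exp_log (by norm_num), one_div]
      norm_cast
    have e3 : w h ≤ 1 := by
      simp only [w]
      rw [div_le_one (by have := hbpos h; positivity)]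
      have h6 : (1 : ℝ) ≤ t := by exact_mod_cast ht
      have h7 : (1 : ℝ) ≤ bet α h := by exact_mod_cast bet_pos hα h
      have : ε ≤ 1 := by
        rw [hε, div_le_one (by positivity)]; linarith
      nlinarith
    have e4 : 1 / 2 ^ (8 * t ^ 2) ≤ w h / 2 := by
      simp only [w]
      have h6 : (bet α h : ℝ) ≤ (256 * R * t ^ 3) ^ (t - 2) := by
        have h7 := bet_le α h
        have h8 : (16 * α) ^ (h - 1) ≤ (16 * α) ^ (t - 2) :=
          Nat.pow_le_pow_right (by omega) (by omega)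
        have h9 : 16 * α = 256 * R * t ^ 3 := by rw [hαdef]; ring
        rw [h9] at h7 h8
        exact_mod_cast h7.trans h8
      have h7 : (8 * R * t * (256 * R * t ^ 3) ^ (t - 2) : ℝ) ≤ 2 ^ (8 * t ^ 2) := by
        exact_mod_cast num_ineq_of_le hR (t := t) (by omega)
      have hb := hbpos h
      rw [div_div, div_le_div_iff₀ (by positivity) (by positivity)]
      have h8 : 1 / (4 * R) ≤ ε := by
        rw [hε, div_le_div_iff₀ (by positivity) (by positivity)]
        nlinarith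
      calc 1 * (t * bet α h * 2) ≤ 1 * (t * (256 * R * t ^ 3) ^ (t - 2) * 2 : ℝ) := by gcongr
        _ = 1 / (4 * R) * (8 * R * t * (256 * R * t ^ 3) ^ (t - 2)) := by field_simp; norm_num
        _ ≤ ε * 2 ^ (8 * t ^ 2) := by gcongr
    have e5 : Real.exp (- w h) ≤ 1 - w h / 2 := by
      have h0 : 0 ≤ w h := hw h (mem_Ico.2 hh)
      have h6 : 1 + w h ≤ Real.exp (w h) := by
        have := Real.add_one_le_exp (w h); linarith
      rw [Real.exp_neg, inv_le_comm₀ (Real.exp_pos _) (by linarith)]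
      refine le_trans ?_ h6
      rw [inv_le_comm₀ (by linarith) (by linarith), inv_eq_one_div, div_le_iff₀ (by linarith)]
      nlinarith
    rw [e2]
    linarith
  obtain ⟨L, h1, h2, h3⟩ := sparsify_weights (U := U) (t := t) hα w hw hww 𝒞 h𝒞
  · refine ⟨L, h1, fun p hp => ⟨(h2 p hp).1, (h2 p hp).2.trans ?_⟩, h3.trans ?_⟩
    · refine Nat.mul_le_mul_right _ ?_
      obtain ⟨s, rfl⟩ : ∃ s, t = s + 1 := ⟨t - 1, by omega⟩
      refine (sum_tht_le hα s).trans (le_of_eq ?_)
      rw [Nat.add_sub_cancel, hαdef,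
        show 16 * (16 * R * (s + 1) ^ 3) = 256 * R * (s + 1) ^ 3 by ring]
    · refine Real.exp_le_exp.2 ?_
      have h4 : ∀ i ∈ Ico 1 t, w i * bet α i * Fintype.card U = ε / t * Fintype.card U := by
        intro i _
        have := (hbpos i).ne'
        simp only [w]
        field_simp
      rw [sum_congr rfl h4, sum_const, Nat.card_Ico, nsmul_eq_mul]
      have h5 : ((t - 1 : ℕ) : ℝ) ≤ t := by exact_mod_cast Nat.sub_le t 1
      calc ((t - 1 : ℕ) : ℝ) * (ε / t * Fintype.card U) ≤ t * (ε / t * Fintype.card U) := by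
            gcongr
        _ = ε * Fintype.card U := by field_simp

end Vale.Agent.P336.Sparse
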