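import Vale.Agent.P336.H52.Num
import Vale.Agent.P336.H567.Narrow

/-!
# P336: the sparsification lemma for CNFs, in an exact (disjoint) form (helper52)
-/

set_option linter.unusedSectionVars false

namespace Vale.Agent.P336.Sparse

open Finset

open Vale.Agent.P336.Expansion (Cl ind cube SparseDec mem_cube)

variable {W : Type} [Fintype W] [DecidableEq W]

/-- The graph of an assignment. -/
def gr (z : W → Bool) : Finset (W × Bool) := univ.filter fun p => z p.1 = p.2

theorem subset_gr {D : Finset (W × Bool)} {z : W → Bool} :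
    D ⊆ gr z ↔ ∀ p ∈ D, z p.1 = p.2 := by
  simp only [gr, subset_iff, mem_filter, mem_univ, true_and]

/-- The edge of a clause. -/
def edge (c : Cl W) : Finset (W × Bool) := c.S.image fun v => (v, c.c v)

theorem edge_subset_gr {c : Cl W} {z : W → Bool} :
    edge c ⊆ gr z ↔ ∀ v ∈ c.S, z v = c.c v := by
  rw [subset_gr]
  simp [edge]

theorem card_edge (c : Cl W) : (edge c).card = c.S.card := by
  unfold edge
  exact card_image_of_injective _ fun a b h => (Prod.ext_iff.1 h).1

theorem prod_ind (C : ℕ → Cl W) (I : Finset ℕ) (z : W → Bool) :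
    ∏ i ∈ I, ind (C i) z = idc (I.image fun i => edge (C i)) (gr z) := by
  unfold idc
  split_ifs with h
  · refine prod_eq_one fun i hi => ?_
    rw [ind, if_neg]
    rw [← edge_subset_gr]
    exact h _ (mem_image_of_mem _ hi)
  · unfold Indep at h
    push Not at h
    obtain ⟨D, hD, hDz⟩ := h
    obtain ⟨i, hi, rfl⟩ := mem_image.1 hD
    refine prod_eq_zero hi ?_
    rw [ind, if_pos (edge_subset_gr.1 hDz)]

open Classical in
/-- The list of clauses of a set system. -/
noncomputable def cls (𝒟 : Finset (Finset (W × Bool))) : List (Cl W) :=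
  (𝒟.filter fun D => ∃ z : W → Bool, D ⊆ gr z).toList.map fun D =>
    ⟨D.image Prod.fst, if h : ∃ z : W → Bool, D ⊆ gr z then h.choose else fun _ => false⟩

theorem length_cls (𝒟 : Finset (Finset (W × Bool))) : (cls 𝒟).length ≤ 𝒟.card := by
  classical
  rw [cls, List.length_map, length_toList]
  exact card_filter_le _ _

theorem width_cls {𝒟 : Finset (Finset (W × Bool))} {t : ℕ} (h : ∀ D ∈ 𝒟, D.card ≤ t) :
    ∀ c ∈ cls 𝒟, c.S.card ≤ t := by
  classical
  intro c hc
  rw [cls, List.mem_map] at hc
  obtain ⟨D, hD, rfl⟩ := hc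
  rw [mem_toList, mem_filter] at hD
  exact card_image_le.trans (h D hD.1)

theorem prod_cls (𝒟 : Finset (Finset (W × Bool))) (z : W → Bool) :
    ((cls 𝒟).map fun c => ind c z).prod = idc 𝒟 (gr z) := by
  classical
  have key : ∀ (D : Finset (W × Bool)) (hD : ∃ z : W → Bool, D ⊆ gr z),
      ((∀ v ∈ D.image Prod.fst, z v = hD.choose v) ↔ D ⊆ gr z) := by
    intro D hD
    have h1 := subset_gr.1 hD.choose_spec
    rw [subset_gr]
    constructor
    · intro h p hp
      rw [h p.1 (mem_image_of_mem _ hp)]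
      exact h1 p hp
    · intro h v hv
      obtain ⟨p, hp, rfl⟩ := mem_image.1 hv
      rw [h p hp, h1 p hp]
  unfold idc
  split_ifs with h
  · refine List.prod_eq_one fun x hx => ?_
    obtain ⟨c, hc, rfl⟩ := List.mem_map.1 hx
    rw [cls, List.mem_map] at hc
    obtain ⟨D, hD, rfl⟩ := hc
    rw [mem_toList, mem_filter] at hD
    rw [ind, if_neg]
    simp only [dif_pos hD.2]
    rw [key D hD.2]
    exact h D hD.1
  · unfold Indep at h
    push Not at h
    obtain ⟨D, hD, hDz⟩ := h
    refine List.prod_eq_zero (List.mem_map.2 ?_)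
    have hD2 : ∃ z : W → Bool, D ⊆ gr z := ⟨z, hDz⟩
    refine ⟨⟨D.image Prod.fst, if h : ∃ z : W → Bool, D ⊆ gr z then h.choose
      else fun _ => false⟩, ?_, ?_⟩
    · rw [cls, List.mem_map]
      exact ⟨D, mem_toList.2 (mem_filter.2 ⟨hD, hD2⟩), rfl⟩
    · rw [ind, if_pos]
      simp only [dif_pos hD2]
      rw [key D hD2]
      exact hDz

/-- The pieces. -/
theorem exists_pieces {t K : ℕ} (J : Finset W) (y₀ : W → Bool) :
    ∀ (L : List (Finset (W × Bool) × Finset (Finset (W × Bool)))),
      (∀ p ∈ L, (∀ D ∈ p.2, D.card ≤ t) ∧ p.2.card ≤ K) →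
      ∃ pieces : List (Finset W × (W → Bool) × List (Cl W)), pieces.length ≤ L.length ∧
        (∀ p ∈ pieces, p.1 ⊆ J ∧ (∀ c ∈ p.2.2, c.S.card ≤ t) ∧ p.2.2.length ≤ K) ∧
        ∀ h : (W → Bool) → ℝ, ∑ z ∈ cube J y₀, h z *
            (L.map fun p => if p.1 ⊆ gr z then idc p.2 (gr z) else 0).sum =
          (pieces.map fun p =>
            ∑ z ∈ cube p.1 p.2.1, h z * (p.2.2.map fun c => ind c z).prod).sum := by
  classical
  intro L
  induction L with
  | nil =>
    intro _
    exact ⟨[], le_rfl, by simp, fun h => by simp⟩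
  | cons p L ih =>
    intro hL
    obtain ⟨pieces, h1, h2, h3⟩ := ih fun q hq => hL q (List.mem_cons_of_mem _ hq)
    obtain ⟨hp1, hp2⟩ := hL p List.mem_cons_self
    by_cases hz : ∃ z₁ ∈ cube J y₀, p.1 ⊆ gr z₁
    · obtain ⟨z₁, hz1, hz2⟩ := hz
      refine ⟨(J \ p.1.image Prod.fst, z₁, cls p.2) :: pieces, ?_, ?_, ?_⟩
      · simpa using h1
      · intro q hq
        rcases List.mem_cons.1 hq with rfl | hq
        · exact ⟨sdiff_subset, width_cls hp1, (length_cls _).trans hp2⟩
        · exact h2 q hq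
      · intro h
        simp only [List.map_cons, List.sum_cons]
        rw [← h3 h]
        simp only [mul_add, sum_add_distrib]
        congr 1
        have e1 : cube (J \ p.1.image Prod.fst) z₁ =
            (cube J y₀).filter fun z => p.1 ⊆ gr z := by
          ext z
          rw [mem_cube] at hz1
          rw [subset_gr] at hz2
          rw [mem_filter, mem_cube, mem_cube, subset_gr]
          constructor
          · intro h4
            refine ⟨fun v hv => ?_, fun q hq => ?_⟩
            · rw [h4 v fun h5 => hv (mem_sdiff.1 h5).1, hz1 v hv]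
            · rw [h4 q.1 fun h5 => (mem_sdiff.1 h5).2 (mem_image_of_mem _ hq), hz2 q hq]
          · rintro ⟨h4, h5⟩ v hv
            by_cases hvJ : v ∈ J
            · have h6 : v ∈ p.1.image Prod.fst := by
                by_contra h6
                exact hv (mem_sdiff.2 ⟨hvJ, h6⟩)
              obtain ⟨q, hq, rfl⟩ := mem_image.1 h6
              rw [h5 q hq, hz2 q hq]
            · rw [h4 v hvJ, hz1 v hvJ]
        rw [e1, sum_filter]
        refine sum_congr rfl fun z _ => ?_
        rw [prod_cls]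
        split_ifs <;> simp
    · push Not at hz
      refine ⟨pieces, ?_, h2, ?_⟩
      · exact h1.trans (by simp)
      · intro h
        rw [← h3 h]
        refine sum_congr rfl fun z hzc => ?_
        simp only [List.map_cons, List.sum_cons]
        rw [if_neg (hz z hzc), zero_add]

/-- **Sparsification**, in the format of helper567. -/
theorem sparseDec_of_le {R t ν : ℕ} (hR0 : 1 ≤ R) (hR : R ≤ 64) (ht : 1 ≤ t)
    (hν : Fintype.card W ≤ R * ν) {K : ℕ}
    (hK : (256 * R * t ^ 3) ^ (t - 1) * (2 * Fintype.card W) ≤ K)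
    (C : ℕ → Cl W) (J : Finset W) (y₀ : W → Bool) (I : Finset ℕ)
    (hC : ∀ i ∈ I, (C i).S.card ≤ t) :
    SparseDec t K (2 ^ ν) C J y₀ I := by
  classical
  by_cases h0 : ∃ i ∈ I, (C i).S = ∅
  · obtain ⟨i, hi, hi0⟩ := h0
    refine ⟨[], by simp, by simp, fun h => ?_⟩
    rw [Expansion.val]
    simp only [List.map_nil, List.sum_nil]
    refine sum_eq_zero fun z _ => ?_
    rw [prod_eq_zero hi, mul_zero]
    rw [ind, if_pos]
    simp [hi0]
  · push Not at h0
    obtain ⟨L, h1, h2, h3⟩ := sparsify_num hR0 hR ht (I.image fun i => edge (C i)) (by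
      intro D hD
      obtain ⟨i, hi, rfl⟩ := mem_image.1 hD
      rw [card_edge]
      exact ⟨card_pos.2 (h0 i hi), hC i hi⟩)
    have h4 : L.length ≤ 2 ^ ν := by
      have h5 : Real.exp (Real.log 2 / (2 * R) * Fintype.card (W × Bool)) ≤ 2 ^ ν := by
        rw [Fintype.card_prod, Fintype.card_bool]
        calc Real.exp (Real.log 2 / (2 * R) * ((Fintype.card W * 2 : ℕ) : ℝ))
            ≤ Real.exp (Real.log 2 * ν) := by
              refine Real.exp_le_exp.2 ?_
              have h6 : (Fintype.card W : ℝ) ≤ R * ν := by exact_mod_cast hν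
              have hRr : (0 : ℝ) < R := by exact_mod_cast hR0
              have hlog : 0 < Real.log 2 := Real.log_pos (by norm_num)
              push_cast
              calc Real.log 2 / (2 * R) * (Fintype.card W * 2) ≤
                  Real.log 2 / (2 * R) * (R * ν * 2) := by gcongr
                _ = Real.log 2 * ν := by field_simp
          _ = 2 ^ ν := by
              rw [Real.exp_mul, Real.exp_log (by norm_num)]
              norm_cast
      exact_mod_cast h3.trans h5
    obtain ⟨pieces, h5, h6, h7⟩ := exists_pieces (t := t) (K := K) J y₀ L (by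
      intro p hp
      refine ⟨fun D hD => ((h2 p hp).1 D hD).2, (h2 p hp).2.trans ?_⟩
      rw [Fintype.card_prod, Fintype.card_bool, mul_comm (Fintype.card W)]
      exact hK)
    refine ⟨pieces, h5.trans h4, h6, fun h => ?_⟩
    rw [← h7 h, Expansion.val]
    refine sum_congr rfl fun z _ => ?_
    rw [prod_ind, h1]

/-- **Sparsification** into at most `2 ^ (|W| / 16)` pieces. -/
theorem sparseDec {t ν : ℕ} (ht : 1 ≤ t) (hν : Fintype.card W ≤ 16 * ν) {K : ℕ}
    (hK : (4096 * t ^ 3) ^ (t - 1) * (2 * Fintype.card W) ≤ K)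
    (C : ℕ → Cl W) (J : Finset W) (y₀ : W → Bool) (I : Finset ℕ)
    (hC : ∀ i ∈ I, (C i).S.card ≤ t) :
    SparseDec t K (2 ^ ν) C J y₀ I :=
  sparseDec_of_le (R := 16) (by norm_num) (by norm_num) ht hν
    (by norm_num; exact hK) C J y₀ I hC

/-- **Sparsification** into at most `2 ^ (|W| / 64)` pieces. -/
theorem sparseDec64 {t ν : ℕ} (ht : 1 ≤ t) (hν : Fintype.card W ≤ 64 * ν) {K : ℕ}
    (hK : (16384 * t ^ 3) ^ (t - 1) * (2 * Fintype.card W) ≤ K)
    (C : ℕ → Cl W) (J : Finset W) (y₀ : W → Bool) (I : Finset ℕ)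
    (hC : ∀ i ∈ I, (C i).S.card ≤ t) :
    SparseDec t K (2 ^ ν) C J y₀ I :=
  sparseDec_of_le (R := 64) (by norm_num) (by norm_num) ht hν
    (by norm_num; exact hK) C J y₀ I hC

end Vale.Agent.P336.Sparse
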